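import Vale.Agent.P065.H183.Defs

/-!
# P065, upper bound: thresholds of a pencil and cells as intersections of half-planes (helper350)
-/

set_option autoImplicit false

namespace Vale.Agent.P065.H350

open Finset Vale.Agent.P065.UB Vale.Agent.P065.UB.RankAux Vale.Agent.P065.H183

/-- a threshold just below `a` -/
theorem exists_below (S : Finset ℝ) (a : ℝ) : ∃ c, c ∉ S ∧ ∀ s ∈ S, (c < s ↔ a ≤ s) := by
  classical
  by_cases h : (S.filter (fun s => s < a)).Nonempty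
  · set u := (S.filter (fun s => s < a)).max' h with hu
    have hum := (S.filter (fun s => s < a)).max'_mem h
    rw [← hu, Finset.mem_filter] at hum
    have hle : ∀ s ∈ S, s < a → s ≤ u := fun s hs hsa =>
      Finset.le_max' _ s (Finset.mem_filter.2 ⟨hs, hsa⟩)
    refine ⟨(u + a) / 2, fun hc => ?_, fun s hs => ⟨fun h1 => ?_, fun h1 => ?_⟩⟩
    · have := hle _ hc (by linarith [hum.2])
      linarith [hum.2]
    · by_contra h2
      push Not at h2
      have := hle s hs h2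
      linarith [hum.2]
    · linarith [hum.2]
  · have hall : ∀ s ∈ S, a ≤ s := by
      intro s hs
      by_contra h2
      push Not at h2
      exact h ⟨s, Finset.mem_filter.2 ⟨hs, h2⟩⟩
    refine ⟨a - 1, fun hc => ?_, fun s hs => ⟨fun _ => hall s hs, fun h1 => by linarith⟩⟩
    have := hall _ hc
    linarith

/-- a threshold just above `b` -/
theorem exists_above (S : Finset ℝ) (b : ℝ) : ∃ c, c ∉ S ∧ ∀ s ∈ S, (c < s ↔ b < s) := by
  classical
  by_cases h : (S.filter (fun s => b < s)).Nonempty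
  · set u := (S.filter (fun s => b < s)).min' h with hu
    have hum := (S.filter (fun s => b < s)).min'_mem h
    rw [← hu, Finset.mem_filter] at hum
    have hle : ∀ s ∈ S, b < s → u ≤ s := fun s hs hsa =>
      Finset.min'_le _ s (Finset.mem_filter.2 ⟨hs, hsa⟩)
    refine ⟨(b + u) / 2, fun hc => ?_, fun s hs => ⟨fun h1 => ?_, fun h1 => ?_⟩⟩
    · have := hle _ hc (by linarith [hum.2])
      linarith [hum.2]
    · linarith [hum.2]
    · have := hle s hs h1
      linarith [hum.2]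
  · have hall : ∀ s ∈ S, s ≤ b := by
      intro s hs
      by_contra h2
      push Not at h2
      exact h ⟨s, Finset.mem_filter.2 ⟨hs, h2⟩⟩
    refine ⟨b + 1, fun hc => ?_, fun s hs => ⟨fun h1 => by linarith, fun h1 => ?_⟩⟩
    · have := hall _ hc
      linarith
    · have := hall s hs
      linarith

/-- two thresholds describe an interval on a finite set -/
theorem exists_two (S : Finset ℝ) (J : Set ℝ) (hJ : J.OrdConnected) :
    ∃ c₁ c₂ : ℝ, c₁ ∉ S ∧ c₂ ∉ S ∧ ∀ s ∈ S, (s ∈ J ↔ c₁ < s ∧ ¬ c₂ < s) := by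
  classical
  by_cases h : (S.filter (fun s => s ∈ J)).Nonempty
  · set a := (S.filter (fun s => s ∈ J)).min' h with ha
    set b := (S.filter (fun s => s ∈ J)).max' h with hb
    have ham := (S.filter (fun s => s ∈ J)).min'_mem h
    have hbm := (S.filter (fun s => s ∈ J)).max'_mem h
    rw [← ha, Finset.mem_filter] at ham
    rw [← hb, Finset.mem_filter] at hbm
    obtain ⟨c₁, h1, h2⟩ := exists_below S a
    obtain ⟨c₂, h3, h4⟩ := exists_above S b
    refine ⟨c₁, c₂, h1, h3, fun s hs => ?_⟩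
    rw [h2 s hs, h4 s hs, not_lt]
    constructor
    · intro hsJ
      have hm : s ∈ S.filter (fun s => s ∈ J) := Finset.mem_filter.2 ⟨hs, hsJ⟩
      exact ⟨Finset.min'_le _ s hm, Finset.le_max' _ s hm⟩
    · rintro ⟨h5, h6⟩
      exact hJ.out ham.2 hbm.2 ⟨h5, h6⟩
  · obtain ⟨c, h1, h2⟩ := exists_below S 0
    refine ⟨c, c, h1, h1, fun s hs => ⟨fun hsJ => ?_, fun h' => absurd h'.1 h'.2⟩⟩
    exact absurd ⟨s, Finset.mem_filter.2 ⟨hs, hsJ⟩⟩ h

theorem stThr : StThr := by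
  classical
  intro Q V I hI p
  have hex : ∀ w : ℕ, ∃ c : ℝ × ℝ, w ∈ V → c.1 ∉ Q.image (sl p) ∧ c.2 ∉ Q.image (sl p) ∧
      ∀ s ∈ Q.image (sl p), (s ∈ I w ↔ c.1 < s ∧ ¬ c.2 < s) := by
    intro w
    by_cases hw : w ∈ V
    · obtain ⟨c₁, c₂, h⟩ := exists_two (Q.image (sl p)) (I w) (hI w hw)
      exact ⟨(c₁, c₂), fun _ => h⟩
    · exact ⟨(0, 0), fun h => absurd h hw⟩
  choose c hc using hex
  refine ⟨V.biUnion fun w => {(c w).1, (c w).2}, ?_, ?_, ?_⟩
  · calc #(V.biUnion fun w => ({(c w).1, (c w).2} : Finset ℝ))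
        ≤ ∑ w ∈ V, #({(c w).1, (c w).2} : Finset ℝ) := Finset.card_biUnion_le
      _ ≤ ∑ _w ∈ V, 2 := Finset.sum_le_sum fun w _ => Finset.card_le_two
      _ = 2 * #V := by rw [Finset.sum_const, smul_eq_mul, mul_comm]
  · intro z hz hmem
    rw [Finset.mem_biUnion] at hmem
    obtain ⟨w, hw, hmem⟩ := hmem
    have himg : sl p z ∈ Q.image (sl p) := Finset.mem_image_of_mem _ hz
    rw [Finset.mem_insert, Finset.mem_singleton] at hmem
    rcases hmem with h | h
    · exact (hc w hw).1 (h ▸ himg)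
    · exact (hc w hw).2.1 (h ▸ himg)
  · intro w hw z hz z' hz' heq
    have h1 := (hc w hw).2.2 (sl p z) (Finset.mem_image_of_mem _ hz)
    have h2 := (hc w hw).2.2 (sl p z') (Finset.mem_image_of_mem _ hz')
    have key : ∀ x : ℝ, x ∈ (V.biUnion fun w => ({(c w).1, (c w).2} : Finset ℝ)) →
        (x < sl p z ↔ x < sl p z') := by
      intro x hx
      have e1 : x ∈ ({c ∈ (V.biUnion fun w => ({(c w).1, (c w).2} : Finset ℝ)) | c < sl p z} :
          Finset ℝ) ↔ x < sl p z := by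
        rw [Finset.mem_filter]
        exact ⟨fun h => h.2, fun h => ⟨hx, h⟩⟩
      have e2 : x ∈ ({c ∈ (V.biUnion fun w => ({(c w).1, (c w).2} : Finset ℝ)) | c < sl p z'} :
          Finset ℝ) ↔ x < sl p z' := by
        rw [Finset.mem_filter]
        exact ⟨fun h => h.2, fun h => ⟨hx, h⟩⟩
      rw [← e1, ← e2, heq]
    have k1 := key (c w).1 (Finset.mem_biUnion.2 ⟨w, hw, by simp⟩)
    have k2 := key (c w).2 (Finset.mem_biUnion.2 ⟨w, hw, by simp⟩)
    rw [h1, h2, k1, k2]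

/-- the class of `t` modulo thresholds is described by two thresholds -/
theorem filter_eq_iff (Cs : Finset ℝ) (s t : ℝ) [DecidablePred fun c => c < t]
    [DecidablePred fun c => c < s] :
    (Cs.filter (fun c => c < t) = Cs.filter (fun c => c < s)) ↔
      (∀ c ∈ Cs, c < s → c < t) ∧ (∀ c ∈ Cs, s ≤ c → t ≤ c) := by
  constructor
  · intro h
    refine ⟨fun c hc h1 => ?_, fun c hc h1 => ?_⟩
    · have : c ∈ Cs.filter (fun c => c < s) := Finset.mem_filter.2 ⟨hc, h1⟩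
      rw [← h] at this
      exact (Finset.mem_filter.1 this).2
    · by_contra h2
      push Not at h2
      have : c ∈ Cs.filter (fun c => c < t) := Finset.mem_filter.2 ⟨hc, h2⟩
      rw [h] at this
      have := (Finset.mem_filter.1 this).2
      linarith
  · rintro ⟨h1, h2⟩
    ext c
    rw [Finset.mem_filter, Finset.mem_filter]
    constructor
    · rintro ⟨hc, h3⟩
      refine ⟨hc, ?_⟩
      by_contra h4
      push Not at h4
      have := h2 c hc h4
      linarith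
    · rintro ⟨hc, h3⟩
      exact ⟨hc, h1 c hc h3⟩

theorem low_iff (Cs : Finset ℝ) (s : ℝ) : (∀ t : ℝ, ∀ c ∈ Cs, c < s → c < t) ∨
    ∃ lo : ℝ, ∀ t : ℝ, (∀ c ∈ Cs, c < s → c < t) ↔ lo < t := by
  classical
  by_cases h : (Cs.filter (fun c => c < s)).Nonempty
  · right
    refine ⟨(Cs.filter (fun c => c < s)).max' h, fun t => ⟨fun h1 => ?_, fun h1 c hc hcs => ?_⟩⟩
    · have hm := (Cs.filter (fun c => c < s)).max'_mem h
      rw [Finset.mem_filter] at hm
      exact h1 _ hm.1 hm.2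
    · exact lt_of_le_of_lt (Finset.le_max' _ c (Finset.mem_filter.2 ⟨hc, hcs⟩)) h1
  · left
    intro t c hc hcs
    exact absurd ⟨c, Finset.mem_filter.2 ⟨hc, hcs⟩⟩ h

theorem high_iff (Cs : Finset ℝ) (s : ℝ) : (∀ t : ℝ, ∀ c ∈ Cs, s ≤ c → t ≤ c) ∨
    ∃ hi : ℝ, ∀ t : ℝ, (∀ c ∈ Cs, s ≤ c → t ≤ c) ↔ t ≤ hi := by
  classical
  by_cases h : (Cs.filter (fun c => s ≤ c)).Nonempty
  · right
    refine ⟨(Cs.filter (fun c => s ≤ c)).min' h, fun t => ⟨fun h1 => ?_, fun h1 c hc hcs => ?_⟩⟩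
    · have hm := (Cs.filter (fun c => s ≤ c)).min'_mem h
      rw [Finset.mem_filter] at hm
      exact h1 _ hm.1 hm.2
    · exact h1.trans (Finset.min'_le _ c (Finset.mem_filter.2 ⟨hc, hcs⟩))
  · left
    intro t c hc hcs
    exact absurd ⟨c, Finset.mem_filter.2 ⟨hc, hcs⟩⟩ h

theorem isHalf_univ : IsHalf (Set.univ : Set Pt) := ⟨0, 0, fun _ _ _ _ => Set.mem_univ _⟩

/-- one pencil: three half-planes -/
theorem one_pencil (Q : Finset Pt) (Cs : Finset ℝ) (p x : Pt) (hx : x ∈ Q) (hp : p ∈ Q)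
    (hinj : ∀ p ∈ Q, ∀ q ∈ Q, p.1 = q.1 → p = q) :
    ∃ h₁ h₂ h₃ : Set Pt, IsHalf h₁ ∧ IsHalf h₂ ∧ IsHalf h₃ ∧
      ∀ z ∈ Q, (lab Cs p z = lab Cs p x ↔ z ∈ h₁ ∧ z ∈ h₂ ∧ z ∈ h₃) := by
  classical
  have hlab : ∀ z : Pt, lab Cs p z = lab Cs p x ↔ ((z.1 < p.1 ↔ x.1 < p.1) ∧
      (p.1 < z.1 ↔ p.1 < x.1)) ∧ (∀ c ∈ Cs, c < sl p x → c < sl p z) ∧
      (∀ c ∈ Cs, sl p x ≤ c → sl p z ≤ c) := by
    intro z
    unfold lab
    rw [Prod.mk.injEq, Prod.mk.injEq, filter_eq_iff, eq_iff_iff, eq_iff_iff]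
    tauto
  rcases lt_trichotomy x.1 p.1 with hlt | heq | hgt
  · have hmul : ∀ z : Pt, z.1 < p.1 → ∀ c : ℝ, (c < sl p z ↔ (-c) * z.1 + 1 * z.2 < p.2 - c * p.1) := by
      intro z hz c
      unfold sl
      rw [lt_div_iff_of_neg (by linarith)]
      constructor <;> intro h <;> linarith
    have hmul' : ∀ z : Pt, z.1 < p.1 → ∀ c : ℝ, (sl p z ≤ c ↔ c * z.1 + (-1) * z.2 ≤ c * p.1 - p.2) := by
      intro z hz c
      unfold sl
      rw [div_le_iff_of_neg (by linarith)]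
      constructor <;> intro h <;> linarith
    obtain ⟨hA, hA1, hA2⟩ : ∃ hA : Set Pt, IsHalf hA ∧ ∀ z : Pt, z.1 < p.1 →
        ((∀ c ∈ Cs, c < sl p x → c < sl p z) ↔ z ∈ hA) := by
      rcases low_iff Cs (sl p x) with h | ⟨lo, h⟩
      · exact ⟨Set.univ, isHalf_univ, fun z _ => ⟨fun _ => Set.mem_univ _, fun _ => h _⟩⟩
      · exact ⟨_, isHalf_lt (-lo) 1 (p.2 - lo * p.1), fun z hz => (h _).trans (hmul z hz lo)⟩
    obtain ⟨hB, hB1, hB2⟩ : ∃ hB : Set Pt, IsHalf hB ∧ ∀ z : Pt, z.1 < p.1 →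
        ((∀ c ∈ Cs, sl p x ≤ c → sl p z ≤ c) ↔ z ∈ hB) := by
      rcases high_iff Cs (sl p x) with h | ⟨hi, h⟩
      · exact ⟨Set.univ, isHalf_univ, fun z _ => ⟨fun _ => Set.mem_univ _, fun _ => h _⟩⟩
      · exact ⟨_, isHalf_le hi (-1) (hi * p.1 - p.2), fun z hz => (h _).trans (hmul' z hz hi)⟩
    refine ⟨_, hA, hB, isHalf_lt 1 0 p.1, hA1, hB1, fun z _ => ?_⟩
    rw [hlab]
    constructor
    · rintro ⟨⟨h1, h2⟩, h3, h4⟩
      have hz : z.1 < p.1 := h1.2 hlt
      refine ⟨?_, (hA2 z hz).1 h3, (hB2 z hz).1 h4⟩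
      show 1 * z.1 + 0 * z.2 < p.1
      linarith
    · rintro ⟨h1, h2, h3⟩
      have hz : z.1 < p.1 := by
        have h1' : 1 * z.1 + 0 * z.2 < p.1 := h1
        linarith
      refine ⟨⟨⟨fun _ => hlt, fun _ => hz⟩, ⟨fun h => absurd h (not_lt.2 hz.le),
        fun h => absurd h (not_lt.2 hlt.le)⟩⟩, (hA2 z hz).2 h2, (hB2 z hz).2 h3⟩
  · have hxp : x = p := hinj x hx p hp heq
    refine ⟨_, _, Set.univ, isHalf_le 1 0 p.1, isHalf_le (-1) 0 (-p.1), isHalf_univ,
      fun z hz => ?_⟩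
    constructor
    · intro h
      rw [hlab] at h
      have h1 : ¬ z.1 < p.1 := fun h' => absurd (h.1.1.1 h') (by rw [heq]; exact lt_irrefl _)
      have h2 : ¬ p.1 < z.1 := fun h' => absurd (h.1.2.1 h') (by rw [heq]; exact lt_irrefl _)
      push Not at h1 h2
      refine ⟨?_, ?_, Set.mem_univ _⟩
      · show 1 * z.1 + 0 * z.2 ≤ p.1
        linarith
      · show (-1) * z.1 + 0 * z.2 ≤ -p.1
        linarith
    · rintro ⟨h1, h2, _⟩
      have h1' : 1 * z.1 + 0 * z.2 ≤ p.1 := h1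
      have h2' : (-1) * z.1 + 0 * z.2 ≤ -p.1 := h2
      have hzp : z = p := hinj z hz p hp (by linarith)
      rw [hzp, hxp]
  · have hmul : ∀ z : Pt, p.1 < z.1 → ∀ c : ℝ, (c < sl p z ↔ c * z.1 + (-1) * z.2 < c * p.1 - p.2) := by
      intro z hz c
      unfold sl
      rw [lt_div_iff₀ (by linarith)]
      constructor <;> intro h <;> linarith
    have hmul' : ∀ z : Pt, p.1 < z.1 → ∀ c : ℝ, (sl p z ≤ c ↔ (-c) * z.1 + 1 * z.2 ≤ p.2 - c * p.1) := by
      intro z hz c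
      unfold sl
      rw [div_le_iff₀ (by linarith)]
      constructor <;> intro h <;> linarith
    obtain ⟨hA, hA1, hA2⟩ : ∃ hA : Set Pt, IsHalf hA ∧ ∀ z : Pt, p.1 < z.1 →
        ((∀ c ∈ Cs, c < sl p x → c < sl p z) ↔ z ∈ hA) := by
      rcases low_iff Cs (sl p x) with h | ⟨lo, h⟩
      · exact ⟨Set.univ, isHalf_univ, fun z _ => ⟨fun _ => Set.mem_univ _, fun _ => h _⟩⟩
      · exact ⟨_, isHalf_lt lo (-1) (lo * p.1 - p.2), fun z hz => (h _).trans (hmul z hz lo)⟩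
    obtain ⟨hB, hB1, hB2⟩ : ∃ hB : Set Pt, IsHalf hB ∧ ∀ z : Pt, p.1 < z.1 →
        ((∀ c ∈ Cs, sl p x ≤ c → sl p z ≤ c) ↔ z ∈ hB) := by
      rcases high_iff Cs (sl p x) with h | ⟨hi, h⟩
      · exact ⟨Set.univ, isHalf_univ, fun z _ => ⟨fun _ => Set.mem_univ _, fun _ => h _⟩⟩
      · exact ⟨_, isHalf_le (-hi) 1 (p.2 - hi * p.1), fun z hz => (h _).trans (hmul' z hz hi)⟩
    refine ⟨_, hA, hB, isHalf_lt (-1) 0 (-p.1), hA1, hB1, fun z _ => ?_⟩
    rw [hlab]
    constructor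
    · rintro ⟨⟨h1, h2⟩, h3, h4⟩
      have hz : p.1 < z.1 := h2.2 hgt
      refine ⟨?_, (hA2 z hz).1 h3, (hB2 z hz).1 h4⟩
      show (-1) * z.1 + 0 * z.2 < -p.1
      linarith
    · rintro ⟨h1, h2, h3⟩
      have hz : p.1 < z.1 := by
        have h1' : (-1) * z.1 + 0 * z.2 < -p.1 := h1
        linarith
      refine ⟨⟨⟨fun h => absurd h (not_lt.2 hz.le), fun h => absurd h (not_lt.2 hgt.le)⟩,
        ⟨fun _ => hgt, fun _ => hz⟩⟩, (hA2 z hz).2 h2, (hB2 z hz).2 h3⟩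

theorem conv_list (Q : Finset Pt) (Cs : Pt → Finset ℝ) (x : Pt) (hx : x ∈ Q)
    (hinj : ∀ p ∈ Q, ∀ q ∈ Q, p.1 = q.1 → p = q) (ps : List Pt) (hps : ∀ p ∈ ps, p ∈ Q) :
    ∃ L : List (Set Pt), L.length ≤ 3 * ps.length ∧ (∀ h ∈ L, IsHalf h) ∧
      ∀ z ∈ Q, ((∀ p ∈ ps, lab (Cs p) p z = lab (Cs p) p x) ↔ ∀ h ∈ L, z ∈ h) := by
  induction ps with
  | nil => exact ⟨[], by simp, by simp, by simp⟩
  | cons p ps ih =>
    obtain ⟨L, h1, h2, h3⟩ := ih (fun q hq => hps q (List.mem_cons_of_mem _ hq))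
    obtain ⟨a, b, c, ha, hb, hc, h4⟩ := one_pencil Q (Cs p) p x hx (hps p List.mem_cons_self) hinj
    refine ⟨a :: b :: c :: L, ?_, ?_, ?_⟩
    · simp only [List.length_cons]
      omega
    · intro h hh
      simp only [List.mem_cons] at hh
      rcases hh with rfl | rfl | rfl | hh
      · exact ha
      · exact hb
      · exact hc
      · exact h2 h hh
    · intro z hz
      simp only [List.forall_mem_cons]
      rw [h3 z hz, h4 z hz]
      tauto

theorem stConv : StConv := by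
  classical
  intro Q Cs ps x hx hinj hps
  obtain ⟨L, h1, h2, h3⟩ := conv_list Q Cs x hx hinj ps hps
  refine ⟨Finset.range L.length, fun i => L.getD i Set.univ, ?_, ?_, ?_⟩
  · rw [Finset.card_range]
    exact h1
  · intro i hi
    rw [Finset.mem_range] at hi
    show IsHalf (L.getD i Set.univ)
    rw [List.getD_eq_getElem _ _ hi]
    exact h2 _ (List.getElem_mem hi)
  · intro z
    unfold cell
    rw [Finset.mem_filter]
    refine and_congr_right fun hz => ?_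
    rw [h3 z hz]
    constructor
    · intro h i hi
      rw [Finset.mem_range] at hi
      show z ∈ L.getD i Set.univ
      rw [List.getD_eq_getElem _ _ hi]
      exact h _ (List.getElem_mem hi)
    · intro h s hs
      obtain ⟨i, hi, rfl⟩ := List.getElem_of_mem hs
      have h5 : z ∈ L.getD i Set.univ := h i (Finset.mem_range.2 hi)
      rwa [List.getD_eq_getElem _ _ hi] at h5

end Vale.Agent.P065.H350
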